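import Vale.Agent.P011UF2P.E6
import Vale.Agent.P011UF2.Defs
import Vale.Agent.P011UGC5.Lv
import Vale.Agent.P011UIV.Main
import Vale.Agent.P011UV.Par
import Vale.Agent.P011UF9.Top

/-!
The parabolic subgroup of type `A₅` is rational.
-/

set_option autoImplicit false
set_option linter.all false

namespace Vale.Agent.P011UF2P

open Matrix Subgroup Vale.Agent.P011L Vale.Agent.P011LD Vale.Agent.P183CH Vale.Agent.P011U
  Vale.Agent.P011UP Vale.Agent.P011UQ Vale.Agent.P011UF2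

/-- The nodes outside of a stable type have trivial Tits algebras. -/
theorem sub_of (lft : LFT) : AllI fun _ _ _ _ _ D T => ∀ e, Ty D.R CartanMatrix.E₆ e → ¬Lift T →
    ∀ J, Par T J → ∀ j, e j ≠ 1 → e j ≠ 3 → j ∈ J := by
  intro k K _ _ _ _ _ D hD T e he hL J ⟨g, c, π, h, h1⟩ j j1 j3
  have hR := Chev.R_ok D
  by_contra hj
  obtain ⟨p, z, -, -, hz, -⟩ := nf_co hD h
  refine hL (lft k K D hD T e he g c π h z hz j j1 j3 1 ⟨∅, fun _ _ _ => rfl⟩ fun σ τ _ _ => ?_)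
  have h2 : (g σ)⁻¹ * T.a σ (g τ) * g σ ∈ LJ (GG D K) J :=
    std_X GG_ok (h.1 σ) hR (fun γ e _ => pm_In (h1 σ).2 e) (h1 τ).1
  have h3 : tz T g σ τ ∈ LJ (GG D K) J := by
    simpa [tz, mul_assoc] using mul_mem (mul_mem (inv_mem (h1 (σ * τ)).1) (h1 σ).1) h2
  rw [hz] at h3
  obtain ⟨s, h4, h5⟩ := (P011UGC5.mem_TJ GG_ok).1
    (P011UGC5.TJ_of GG_ok hR h3 (GG_ok.hT_mem _))
  rw [← hD.hT_inj h5, h4 j hj]
  simp

theorem p0_of (lft : LFT) (top : AllI fun _ _ _ _ _ D T => ∀ e, Ty D.R CartanMatrix.E₆ e →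
    ∀ J, e.symm 3 ∉ J → Par T J → FixP T {i | i ≠ e.symm 1}) : P0 := by
  intro k K _ _ _ _ _ D hD T e he hL hA
  have := Infinite.of_injective _ (algebraMap k K).injective
  have nfx := P011UC.nfx P011UB.aut
  have key : ∀ (T' : Tw k (D.grp K)) J, Eqv T T' → FixP T' J →
      ∃ T'' : Tw k (D.grp K), Eqv T T'' ∧ ¬Lift T'' ∧ Par T'' J := fun T' J h1 h2 => by
    obtain ⟨T'', h3, h4⟩ := lev nfx k K D hD T' J h2
    have h5 := P011UC.eqv_trans h1 h3
    exact ⟨T'', h5, fun c => hL (P011UIV.eqv_lift hD (P011UC.eqv_symm h5) c), h4⟩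
  obtain ⟨J, hJ, h⟩ := (P011UV.parx nfx k K D hD T).1 hA
  obtain ⟨T', h1, h2, h3⟩ := key T J (P011UC.eqv_refl T) h
  by_cases c : e.symm 3 ∈ J
  · refine ⟨T', h1, h2, (?_ : J = J0 e) ▸ h3⟩
    have h4 : J0 e ⊆ J := fun j hj => by
      by_cases c' : e j = 3
      · exact (e.eq_symm_apply.2 c').symm ▸ c
      · exact sub_of lft k K D hD T' e he h2 J h3 j hj c'
    refine (h4.antisymm fun j hj e1 => hJ (Set.eq_univ_of_forall fun i => ?_)).symm
    by_cases c' : e i = 1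
    · exact e.injective (e1.trans c'.symm) ▸ hj
    · exact h4 c'
  · refine key T' _ h1 ((?_ : {i | i ≠ e.symm 1} = J0 e) ▸ top k K D hD T' e he J c h3)
    exact Set.ext fun i => not_congr e.eq_symm_apply

theorem hd6 {R : RS} (hR : R.Ok) {e : Fin R.r ≃ Fin 6} (he : Ty R CartanMatrix.E₆ e) :
    P011UF9.Hd R (th e) (e.symm 1) (e.symm 3) :=
  ⟨th_mem he hR, th_pr he, th_nn e, th_top he hR, by rw [A_eq he]; decide⟩

theorem p0 (lft : LFT) : P0 := p0_of lft fun k K _ _ _ _ _ D _ T e he J hJ h =>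
  P011UF9.top2 T (hd6 (Chev.R_ok D) he)
    (fun π m => ⟨e.eq_symm_apply.2 ((dg_one he m _).2 (e.apply_symm_apply 1)), dg_th he m⟩)
    (fun i hi c => by
      obtain ⟨a, rfl⟩ := e.symm.surjective i
      have h1 : a ≠ 1 := fun e1 => c (e1 ▸ rfl)
      have h3 : a ≠ 3 := fun e1 => hJ (e1 ▸ hi)
      rw [A_eq he]
      clear hi c
      revert a
      decide) h

end Vale.Agent.P011UF2P
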