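import Vale.Agent.P011UD.Aut
import Vale.Agent.P011UP.Std

/-!
The highest root of `E₆`.
-/

set_option autoImplicit false
set_option linter.all false

namespace Vale.Agent.P011UF2P

open Matrix Vale.Agent.P183CH Vale.Agent.P011U Vale.Agent.P011UP

variable {R : RS} (e : Fin R.r ≃ Fin 6)

/-- vectors in the standard numbering -/
def rt (v : Fin 6 → ℤ) : R.Q := fun i => v (e i)

/-- the pairing with the coroots -/
def p6 (v : Fin 6 → ℤ) : Fin 6 → ℤ :=
  ![2 * v 0 - v 2, 2 * v 1 - v 3, 2 * v 2 - v 0 - v 3, 2 * v 3 - v 1 - v 2 - v 4,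
    2 * v 4 - v 3 - v 5, 2 * v 5 - v 4]

/-- the reflections -/
def s6 (b : Fin 6) (v : Fin 6 → ℤ) : Fin 6 → ℤ := v - p6 v b • Pi.single b 1

/-- six times the quadratic form -/
def q6 (v : Fin 6 → ℤ) : ℤ := 3 * (2 * v 0 - v 2) ^ 2 + (3 * v 2 - 2 * v 3) ^ 2 +
  3 * (2 * v 5 - v 4) ^ 2 + (3 * v 4 - 2 * v 3) ^ 2 + 3 * (2 * v 1 - v 3) ^ 2 + v 3 ^ 2

/-- the highest root -/
def th : R.Q := rt e ![1, 2, 2, 3, 2, 1]

theorem rt_α (a : Fin 6) : R.α (e.symm a) = rt e (Pi.single a 1) := funext fun i => by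
  simp [rt, RS.α_apply, Pi.single_apply, Equiv.eq_symm_apply]

theorem rt_eq (γ : R.Q) : γ = rt e fun a => γ (e.symm a) := funext fun i => by simp [rt]

theorem rt_inj {v v' : Fin 6 → ℤ} (h : rt e v = rt e v') : v = v' := funext fun a => by
  simpa [rt] using congrFun h (e.symm a)

theorem th_sub : th e - R.α (e.symm 1) = rt e ![1, 1, 2, 3, 2, 1] := by
  rw [rt_α]
  exact congrArg (rt e) (show ![1, 2, 2, 3, 2, 1] - Pi.single 1 1 = _ by decide)

theorem th_nn : 0 ≤ th e - R.α (e.symm 1) := th_sub e ▸ fun i =>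
  (show ∀ a, 0 ≤ (![1, 1, 2, 3, 2, 1] : Fin 6 → ℤ) a by decide) _

theorem q6_top {v : Fin 6 → ℤ} (h : q6 v = 12) (h3 : 3 ≤ v 3) :
    v = ![1, 2, 2, 3, 2, 1] ∨ v = ![1, 1, 2, 3, 2, 1] := by
  rw [q6] at h
  have h0 := sq_nonneg (2 * v 0 - v 2)
  have h1 := sq_nonneg (3 * v 2 - 2 * v 3)
  have h2 := sq_nonneg (2 * v 5 - v 4)
  have h4 := sq_nonneg (3 * v 4 - 2 * v 3)
  have h5 := sq_nonneg (2 * v 1 - v 3)
  have e3 : v 3 = 3 := by nlinarith
  rw [e3] at h h1 h4 h5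
  have h6 : (2 * v 1 - 3) ^ 2 ≠ 0 := pow_ne_zero _ (by omega)
  have e0 := pow_eq_zero_iff (two_ne_zero) |>.1 (show (2 * v 0 - v 2) ^ 2 = 0 by omega)
  have e2 := pow_eq_zero_iff (two_ne_zero) |>.1 (show (3 * v 2 - 2 * 3) ^ 2 = 0 by omega)
  have e5 := pow_eq_zero_iff (two_ne_zero) |>.1 (show (2 * v 5 - v 4) ^ 2 = 0 by omega)
  have e4 := pow_eq_zero_iff (two_ne_zero) |>.1 (show (3 * v 4 - 2 * 3) ^ 2 = 0 by omega)
  have e1 := sq_eq_one_iff.1 (show (2 * v 1 - 3) ^ 2 = 1 by omega)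
  refine e1.imp (fun e1 => ?_) fun e1 => ?_ <;> funext a <;> fin_cases a <;> simp <;> omega

variable {e} (he : Ty R CartanMatrix.E₆ e)
include he

theorem A_eq (a b : Fin 6) : R.A (e.symm a) (e.symm b) = CartanMatrix.E₆ a b := by
  rw [he, e.apply_symm_apply, e.apply_symm_apply]

theorem rt_pr (v : Fin 6 → ℤ) (b : Fin 6) : R.pr (rt e v) (e.symm b) = p6 v b := by
  rw [RS.pr_eq, ← e.symm.sum_comp, Fin.sum_univ_six]
  simp only [A_eq he, rt, e.apply_symm_apply, CartanMatrix.E₆]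
  fin_cases b <;> simp [p6] <;> ring

theorem rt_s (v : Fin 6 → ℤ) (b : Fin 6) : R.s (e.symm b) (rt e v) = rt e (s6 b v) := by
  rw [RS.s, rt_pr he, rt_α]
  rfl

theorem th_pr (i : Fin R.r) : R.pr (th e) i = if i = e.symm 1 then 1 else 0 := by
  obtain ⟨a, rfl⟩ := e.symm.surjective i
  rw [th, rt_pr he]
  simp only [EmbeddingLike.apply_eq_iff_eq]
  revert a
  decide

theorem th_mem (hR : R.Ok) : th e ∈ R.Φ := by
  have h : ∀ l : List (Fin 6), rt e (l.foldr s6 (Pi.single 3 1)) ∈ R.Φ := fun l => by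
    induction l with
    | nil => exact rt_α e 3 ▸ hR.simple _
    | cons a l ih => exact rt_s he _ a ▸ hR.refl _ _ ih
  have h1 := h [1, 3, 4, 2, 3, 5, 0, 4, 2, 1]
  rwa [show List.foldr s6 _ _ = ![1, 2, 2, 3, 2, 1] by decide] at h1

theorem quad (hR : R.Ok) : ∀ γ ∈ R.Φ, ∀ v, γ = rt e v → q6 v = 12 := by
  refine rt_ind hR (fun i v h => ?_) fun i γ _ ih v h => ?_
  · obtain ⟨a, rfl⟩ := e.symm.surjective i
    obtain rfl := rt_inj e ((rt_α e a).symm.trans h)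
    clear h
    revert a
    decide
  · obtain ⟨a, rfl⟩ := e.symm.surjective i
    have h1 := ih _ (rt_eq e γ)
    rw [rt_eq e γ, rt_s he] at h
    obtain rfl := rt_inj e h
    rw [← h1]
    fin_cases a <;> simp [q6, s6, p6] <;> ring

theorem th_top (hR : R.Ok) : ∀ γ ∈ R.Φ, th e - R.α (e.symm 1) ≤ γ →
    γ = th e ∨ γ = th e - R.α (e.symm 1) := fun γ hγ h => by
  rw [th_sub] at h ⊢
  have h1 := q6_top (quad he hR γ hγ _ (rt_eq e γ)) (by simpa [rt] using h (e.symm 3))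
  exact h1.imp (fun h1 => (rt_eq e γ).trans (congrArg _ h1)) fun h1 =>
    (rt_eq e γ).trans (congrArg _ h1)

theorem dg_vec {π : Equiv.Perm (Fin R.r)} (h : Dg R π) (i : Fin R.r) :
    (![16, 22, 30, 42, 30, 16] : Fin 6 → ℤ) (e (π i)) = ![16, 22, 30, 42, 30, 16] (e i) := by
  simpa using (he.au h).vec (by rw [CartanMatrix.E₆_det]; decide) ![16, 22, 30, 42, 30, 16]
    (by decide) (e i)

theorem dg_one {π : Equiv.Perm (Fin R.r)} (h : Dg R π) (i : Fin R.r) : e (π i) = 1 ↔ e i = 1 := by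
  have := dg_vec he h i
  generalize e (π i) = a, e i = b at this
  revert a b
  decide

theorem dg_th {π : Equiv.Perm (Fin R.r)} (h : Dg R π) : pm π (th e) = th e := funext fun i => by
  obtain ⟨i, rfl⟩ := π.surjective i
  have := dg_vec he h i
  simp only [pm, th, rt, π.symm_apply_apply]
  generalize e (π i) = a, e i = b at this
  revert a b
  decide

end Vale.Agent.P011UF2P
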